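import Vale.Agent.P205.Full.Answer
import Vale.Agent.P205.Full.Main

open scoped Manifold ContDiff
open Vale.Agent.P205.Full.Answer

/-- Every closed smooth Riemannian surface has a smooth isometric immersion in four-space. -/
theorem Vale.Agent.Results.P205.IsometricR4.result
    (M : Type) [TopologicalSpace M] [T2Space M] [CompactSpace M]
    [ChartedSpace (EuclideanSpace ℝ (Fin 2)) M] [IsManifold (𝓡 2) ∞ M]
    (g : SmoothMetric (𝓡 2) M) :
    ∃ F : M → EuclideanSpace ℝ (Fin 4), IsSmoothIsometric g F :=
  Vale.Agent.P205.Full.q1Full M g
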